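import Vale.Agent.P358.Final

namespace Vale.Agent.Results.P358.GADCapacity

open Vale.Agent.P358

/-- For every damping and every stationary population the classical capacity of the generalized
amplitude-damping channel equals its Holevo capacity, given by a scalar optimisation. -/
theorem result (γ ν : ℝ) (hγ : γ ∈ Set.Icc (0 : ℝ) 1) (hν : ν ∈ Set.Icc (0 : ℝ) 1) :
    ∃ C : ℝ, IsLUB (scalarValues γ ν) C ∧
      (∀ n : ℕ, IsLUB (holevoValues (gadc γ ν) n) ((n : ℝ) * C)) ∧
      IsLUB {r : ℝ | ∃ n : ℕ, 1 ≤ n ∧ ∃ x ∈ holevoValues (gadc γ ν) n, r = x / n} C :=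
  gad_capacity hγ.1 hγ.2 hν.1 hν.2

end Vale.Agent.Results.P358.GADCapacity
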